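import Vale.Agent.P088.R2.H997.EP.NNp
import Vale.Agent.P088.R2.H509.EP.TG
import Vale.Agent.P088.R2.H747.A.Rows
import Vale.Agent.P088.R2.H673.A.Pn

/-!
# P088, stage 3, EST': row NN, the passes with helper747's `GG`

`GG_ge`: `G₀ ≤ 2 GG` and `NG ≤ 16 GG` on the leaves `P1`, `P2`.
-/

open Set Filter
open scoped ContDiff Topology Matrix

noncomputable section

namespace Vale.Agent.P088.R2.H997.EP

open Vale.Agent.P088.LR Vale.Agent.P088.HY
open Vale.Agent.P088.R2.H31.EP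
open Vale.Agent.P088.R2.H551.E
open Vale.Agent.P088.R2.H867.EP (Zo)
open Vale.Agent.P088.R2.H710.GP
open Vale.Agent.P088.R2.H660.P (MP MPm)
open Vale.Agent.P088.R2.H673.Pn (lS lS_deriv)
open Vale.Agent.P088.R2.H509.TG (S_mono u_close)

variable {n : ℕ} {q : Cst} {d : Pk n} {z : VV n} {k : Zo}

/-- `log S` is `5`-Lipschitz on `[7/10, ∞)`. -/
theorem lS_lip (hr : H509.Rad.Ok q.e₁ rp) {a b : ℝ} (ha : 7 / 10 ≤ a) (hab : a ≤ b) :
    lS q.e₁ b - lS q.e₁ a ≤ 5 * (b - a) := by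
  have hd : ∀ x ∈ Icc a b, HasDerivAt (lS q.e₁) (prL q.e₁ x) x := fun x hx =>
    lS_deriv hr.e0 (by linarith [hx.1])
  refine Convex.image_sub_le_mul_sub_of_deriv_le (convex_Icc a b)
    (fun x hx => (hd x hx).continuousAt.continuousWithinAt)
    (fun x hx => (hd x (interior_subset hx)).differentiableAt.differentiableWithinAt)
    (fun x hx => ?_) a ⟨le_rfl, hab⟩ b ⟨hab, le_rfl⟩ hab
  have hx' := interior_subset hx
  rw [(hd x hx').deriv]
  exact prL_le hr (ha.trans hx'.1)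

/-- The conditions on the constants. -/
structure GS (n : ℕ) (q : Cst) : Prop where
  gc : GC q
  r1 : 2 * q.p₁ < q.r₁ * Real.exp (-1)
  met : ∀ d : Pk n, PkOk q d → ∀ z, |d.r2 z - qq z| ≤ 1 / (100 * (q.p₁ + 1)) * qq z

theorem evGS (n : ℕ) : EvC (GS n) := by
  have h1 : EvC fun q => 0 < q.c' → 2 * q.p₁ < q.r₁ * Real.exp (-1) :=
    EvC.at_M₀ (fun q t => 0 < q.c' → 2 * q.p₁ < q.c' * t / 2 * Real.exp (-1)) fun q => by
      by_cases h : 0 < q.c'
      · have h2 : 0 < q.c' / 2 * Real.exp (-1) := by positivity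
        refine ((tendsto_id.const_mul_atTop h2).eventually_gt_atTop (2 * q.p₁)).mono
          fun t ht _ => ?_
        have e : q.c' * t / 2 * Real.exp (-1) = q.c' / 2 * Real.exp (-1) * t := by ring
        rw [e]
        exact ht
      · exact Eventually.of_forall fun _ h2 => absurd h2 h
  have h2 := EvC.metric n (fun q => 1 / (100 * (q.p₁ + 1))) fun _ => rfl
  refine (((evG.and EvC.pos).and h1).and h2).mono ?_
  rintro q ⟨⟨⟨g, p⟩, a1⟩, a2⟩
  have h3 := Cst.p₁_ge g.rad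
  exact ⟨g, a1 (by
    have := p.2
    tauto), fun d h z => (a2 (by positivity) d h).2.2.2.2 z⟩

theorem G0_le (hg : GS n q) (h : PkOk q d) (f : Fc q d) (hz : d.ch q k z ≠ 0)
    (hk : k = .P1 ∨ k = .P2) : d.G0 q z ≤ 2 * H747.A.GG q d z := by
  have hrad := hg.gc.rad
  have hp := Cst.p₁_ge hrad
  have r1 : q.p₁ ^ 2 ≤ d.r2 z := sd_P hz (by rcases hk with rfl | rfl <;> simp) f.lit.cp
  have r2 : d.r2 z ≤ (2 * q.p₁) ^ 2 :=
    sd_nf hz (by rcases hk with rfl | rfl <;> simp [H867.EP.Off]) (by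
      rcases hk with rfl | rfl <;> simp) f.lit.cp
  have r0 : 0 ≤ d.r2 z := (sq_nonneg _).trans r1
  have hm := hg.met d h z
  obtain ⟨a, ha⟩ : ∃ a, a = √(d.r2 z) := ⟨_, rfl⟩
  obtain ⟨b, hb⟩ : ∃ b, b = √(qq z) := ⟨_, rfl⟩
  have hqq : 0 ≤ qq z := by
    unfold qq HY.sq
    positivity
  have ha2 : a ^ 2 = d.r2 z := by rw [ha, Real.sq_sqrt r0]
  have hb2 : b ^ 2 = qq z := by rw [hb, Real.sq_sqrt hqq]
  have hb0 : 0 ≤ b := by rw [hb]; exact Real.sqrt_nonneg _
  have ha0 : 0 ≤ a := by rw [ha]; exact Real.sqrt_nonneg _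
  have a1 : q.p₁ ≤ a := by nlinarith
  have a2 : a ≤ 2 * q.p₁ := by nlinarith
  have hd0 : 0 < 1 / (100 * (q.p₁ + 1)) := by positivity
  have hd1 : 1 / (100 * (q.p₁ + 1)) ≤ 1 / 200 := by
    rw [div_le_div_iff₀ (by positivity) (by norm_num)]
    nlinarith
  have hdp : 1 / (100 * (q.p₁ + 1)) * q.p₁ ≤ 1 / 100 := by
    rw [div_mul_eq_mul_div, div_le_div_iff₀ (by positivity) (by norm_num)]
    nlinarith
  have hlS : lS q.e₁ b ≤ lS q.e₁ a + 3 / 20 := by
    rcases le_total b a with hba | hab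
    · have hb1 : 0 < b := by
        rcases hb0.lt_or_eq with h0 | h0
        · exact h0
        · exfalso
          rw [← hb2, ← ha2, ← h0] at hm
          have := (abs_le.1 hm).2
          nlinarith
      have h1 : prS q.e₁ (b ^ 2) ≤ prS q.e₁ (a ^ 2) :=
        S_mono hrad.e0 (by positivity) (by nlinarith)
      have h2 : 0 < prS q.e₁ (b ^ 2) := H673.Pn.prS_pos hrad.e0 (by positivity)
      have h3 := Real.log_le_log h2 h1
      unfold lS
      linarith
    · have h1 := lS_lip hrad (by linarith) hab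
      rw [← hb2, ← ha2] at hm
      have h2 := (abs_le.1 hm).1
      have h4 : b ≤ 3 / 2 * a := by
        by_contra hc
        push Not at hc
        have h3 : 1 / (100 * (q.p₁ + 1)) * b ^ 2 ≤ 1 / 200 * b ^ 2 :=
          mul_le_mul_of_nonneg_right hd1 (by positivity)
        nlinarith
      have h5 : (b - a) * b ≤ 1 / (100 * (q.p₁ + 1)) * b * b := by nlinarith
      have h6 : b - a ≤ 1 / (100 * (q.p₁ + 1)) * b := by
        have hb1 : 0 < b := by linarith
        exact le_of_mul_le_mul_right h5 hb1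
      have h7 : 1 / (100 * (q.p₁ + 1)) * b ≤ 1 / (100 * (q.p₁ + 1)) * (3 * q.p₁) :=
        mul_le_mul_of_nonneg_left (by linarith) hd0.le
      linarith
  have hsl := h.sl.inn 1 0 (H747.A.ff q d z, H747.A.rr d z)
    (by
      show 0 < √(d.r2 z)
      rw [← ha]
      linarith)
    (by
      show √(d.r2 z) < _
      rw [← ha]
      linarith [hg.r1])
  rw [if_pos rfl] at hsl
  have hGG : H747.A.GG q d z = Real.exp (d.u q z + lS q.e₁ a) := by
    rw [ha]
    exact hsl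
  have hbS : 0 < prS q.e₁ (qq z) := by
    refine H673.Pn.prS_pos hrad.e0 ?_
    rcases hqq.lt_or_eq with h0 | h0
    · exact h0
    · exfalso
      rw [← h0] at hm
      have := (abs_le.1 hm).2
      nlinarith
  have hG0 : d.G0 q z = Real.exp (d.u0 z + lS q.e₁ b) := by
    unfold Pk.G0 lS
    rw [hb2, Real.exp_add, Real.exp_log hbS]
  have hu := (abs_le.1 (u_close h z)).1
  rw [hGG, hG0]
  have h2 : (2 : ℝ) = Real.exp (Real.log 2) := (Real.exp_log (by norm_num)).symm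
  rw [h2, ← Real.exp_add]
  refine Real.exp_le_exp.2 ?_
  have := Real.log_two_gt_d9
  linarith

/-- **`NG ≤ 16 GG` at the passes.** -/
theorem GG_ge (hg : GS n q) (h : PkOk q d) (f : Fc q d) (hz : d.ch q k z ≠ 0)
    (hk : k = .P1 ∨ k = .P2) : d.NG q z ≤ 16 * H747.A.GG q d z := by
  have h1 := G0_ge hg.gc h f hz hk
  have h2 := G0_le hg h f hz hk
  linarith

/-- `GG ≥ 1 / 16` at the passes. -/
theorem GG_pass (n : ℕ) (hk : k = .P1 ∨ k = .P2) : EvC fun q => ∀ d : Pk n, PkOk q d →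
    ∀ z, d.ch q k z ≠ 0 → 1 / 16 ≤ H747.A.GG q d z := by
  refine ((evGS n).and (EvC.fc n)).mono fun q hq d h z hz => ?_
  have f := hq.2 d h
  have h1 := GG_ge hq.1 h f hz hk
  have h2 := f.lit.NGg z
  linarith [f.M]

/-- **Leaf `P1`** with `G = GG`. -/
theorem nn_P1g {ρ₁ : Cst → ℝ} (hρ : EvC fun q => 0 < ρ₁ q) :
    RowNk .P1 (fun q (d : Pk n) => MP d.sx d.sy (d.W q) (H747.A.GG q d) (ρ₁ q)) (fun _ => 1 / 4)
      fun q => ρ₁ q * (1 / 16) :=
  nn_P1 (hρ.mono fun _ hq => ⟨hq, by norm_num⟩) (GG_pass n (Or.inl rfl))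

/-- **Leaf `P2`** with `G = GG`. -/
theorem nn_P2g {ρ₁ : Cst → ℝ} (hρ : EvC fun q => 0 < ρ₁ q) :
    RowNk .P2 (fun q (d : Pk n) => MPm d.sx d.sy (d.W q) (H747.A.GG q d) (ρ₁ q)) (fun _ => 1 / 4)
      fun q => ρ₁ q * (1 / 16) :=
  nn_P2 (hρ.mono fun _ hq => ⟨hq, by norm_num⟩) (GG_pass n (Or.inr rfl))

end Vale.Agent.P088.R2.H997.EP
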