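import Vale.Agent.P088.R2.H997.EP.NNk
import Vale.Agent.P088.R2.H303.F.Spec
import Vale.Agent.P088.R2.H31.EP.Thx

/-!
# P088, stage 3, EST': row NN, the leaf `iF`
-/

open Set Filter
open scoped ContDiff Topology Matrix

noncomputable section

namespace Vale.Agent.P088.R2.H997.EP

open Vale.Agent.P088.LR Vale.Agent.P088.HY
open Vale.Agent.P088.R2.H31.EP
open Vale.Agent.P088.R2.H551.E
open Vale.Agent.P088.R2.H867.EP (Zo)
open Vale.Agent.P088.R2.H303.F (MU mX mY)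
open Vale.Agent.P088.R2.H269.INF (nx ny nn)
open Vale.Agent.P088.R2.H768.FarJ (jφ jr)
open Vale.Agent.P088.R2.H464.Cu (uf)
open Vale.Agent.P088.R2.H404.INF

variable {n : ℕ} {k : Zo}

section gen

variable {E ι : Type*} [NormedAddCommGroup E] [NormedSpace ℝ E] [Fintype ι]
variable {t κ₀ : ℝ} {z : E} {m₁ m₂ W : E → ℝ} {σ τ : H961.GW.Sl E ι}

/-- Two margins. -/
theorem nk_MU (hκ : κ₀ ≤ 1) (h1 : t ≤ m₁ z) (h2 : t ≤ m₂ z) (ht : 0 ≤ t) (f1 : 0 ≤ σ.F W z)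
    (f2 : 0 ≤ τ.F W z) : Nk (MU σ τ W m₁ m₂ κ₀) (1 - κ₀) t z := by
  have a1 : 0 ≤ m₁ z := ht.trans h1
  have a2 : 0 ≤ m₂ z := ht.trans h2
  have h3 : 0 ≤ 1 / 3 * (m₁ z * σ.F W z) := by positivity
  have h4 : 0 ≤ 1 / 3 * (m₂ z * τ.F W z) := by positivity
  exact ⟨⟨sub_nonneg.2 hκ, a1, a2, le_rfl, h3, h4, le_rfl, le_rfl⟩, le_rfl, h1, h2⟩

end gen

/-- A leaf with the letters `MU`. -/
theorem nn_MU {m₁ m₂ : Cst → Pk n → VV n → ℝ} {κ₀ ζ : Cst → ℝ} (hκ : EvC fun q => κ₀ q ≤ 1 / 2)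
    (hζ : EvC fun q => 0 < ζ q)
    (hm : EvC fun q => ∀ d : Pk n, PkOk q d → Fc q d → ∀ z, d.ch q k z ≠ 0 →
      ζ q / q.R ≤ m₁ q d z ∧ ζ q / q.R ≤ m₂ q d z) :
    RowNk k (fun q d => MU d.sx d.sy (d.W q) (m₁ q d) (m₂ q d) (κ₀ q)) (fun _ => 1 / 2) ζ := by
  refine rowNk_of (hζ.mono fun q hq => ⟨by norm_num, hq⟩)
    ((hκ.and hm).mono fun q hq h0 d ok f z hz => ?_)
  obtain ⟨h1, h2⟩ := hq.2 d ok f z hz
  have hR : 0 < q.R := by linarith [f.R]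
  exact (nk_MU (by linarith [hq.1]) h1 h2 (div_nonneg h0.2.le hR.le) (f.Fx _ z)
    (f.Fy _ z)).mono (by linarith [hq.1]) le_rfl

/-- `n_x, n_y ≥ 1` where `r > 0`. -/
theorem nxy_ge {q : Cst} {d : Pk n} {z : VV n} (h : PkOk q d) (f : Fc q d) (hr : 0 < d.r2 z) :
    1 ≤ nx q d z ∧ 1 ≤ ny q d z := by
  have hR : 0 < q.R := by linarith [f.R]
  have h1 : 0 < q.D 1 0 (jφ q d z, jr d z) := f.G _ _ (Real.sqrt_pos.2 hr)
  have h2 := f.N (uf d.l z)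
  have h3 := h.Θd0 hR (d.l z.1)
  have h4 := h.Θd0 hR (d.l z.2)
  unfold nx ny nn
  constructor <;> linarith

/-- The metric. -/
theorem evMet (n : ℕ) : EvC fun q => ∀ d : Pk n, PkOk q d → ∀ z,
    |d.r2 z - qq z| ≤ 1 / 2 * qq z :=
  (EvC.metric n (fun _ => 1 / 2) fun _ => rfl).mono fun _ hq d h z =>
    (hq (by norm_num) d h).2.2.2.2 z

/-- **Leaf `iF`.** -/
theorem nn_iF {c : ℝ} (hc : 0 < c) {κ₀ : Cst → ℝ} (hκ : EvC fun q => κ₀ q ≤ 1 / 2) :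
    RowNk .iF (fun q (d : Pk n) => MU d.sx d.sy (d.W q) (mX c q d) (mY c q d) (κ₀ q))
      (fun _ => 1 / 2) fun q => c * q.σ := by
  refine nn_MU hκ (EvC.pos.mono fun q hq => mul_pos hc hq.2.1.2.1)
    ((evInf.and (evMet n)).mono fun q hq d ok f z hz => ?_)
  have h1 := (far_supp hq.1 ok (subset_tsupport _ (Function.mem_support.2 hz))).q
  have h2 : 0 < d.r2 z := by
    have h5 : 0 < q.κ₁ * q.R / 2 := by
      have := hq.1.κ0
      have := hq.1.R0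
      positivity
    have h3 : 0 < qq z := Real.sqrt_pos.1 (h5.trans_le h1)
    have h4 := (abs_le.1 (hq.2 d ok z)).1
    linarith
  obtain ⟨h3, h4⟩ := nxy_ge ok f h2
  have hs : 0 ≤ c * (q.σ / q.R) := mul_nonneg hc.le f.s.le
  rw [mul_div_assoc]
  exact ⟨le_mul_of_one_le_right hs h3, le_mul_of_one_le_right hs h4⟩

end Vale.Agent.P088.R2.H997.EP
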