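import Vale.Agent.P088.R2.H997.EP.NNz
import Vale.Agent.P088.R2.H997.EP.NNi
import Vale.Agent.P088.R2.H997.EP.NNg
import Vale.Agent.P088.R2.H238.Z.KeP
import Vale.Agent.P088.R2.H294.E.NNs
import Vale.Agent.P088.R2.H168.INF.Spec2
import Vale.Agent.P088.R2.H312.S.Zone
import Vale.Agent.P088.R2.H53.RS.Lt
import Vale.Agent.P088.R2.H303.F.Lt
import Vale.Agent.P088.R2.H558.G.Shape

/-!
# P088, stage 3, EST': row NN with the literal letters

`LfN F`: the literal functions used by the margins. `rest_nn`: the field `nn` of helper558's `Rest F`.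
`rest_k2`: the field `k2`.
-/

open Set Filter
open scoped ContDiff Topology Matrix

noncomputable section

namespace Vale.Agent.P088.R2.H997.EP

open Vale.Agent.P088.LR Vale.Agent.P088.HY
open Vale.Agent.P088.R2.H31.EP
open Vale.Agent.P088.R2.H551.E
open Vale.Agent.P088.R2.H867.EP (Zo)
open Vale.Agent.P088.R2.H455.E
open Vale.Agent.P088.R2.H558.G (Lf Lit)
open Vale.Agent.P088.R2.H747.SW (MA)

variable {n : ℕ}

/-! ## `k ≥ 1` -/

/-- `k ≥ 1` where `z2a` or `z2b` is alive. -/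
theorem kz_one (hn : 1 ≤ n) {k : Zo} (hk : k = .z2a ∨ k = .z2b) : EvC fun q =>
    ∀ d : Pk n, PkOk q d → ∀ z, d.ch q k z ≠ 0 → 1 ≤ H942.Pk.kz q d z := by
  refine (H238.Z.ke hn (fun _ => 1) fun _ => rfl).mono fun q hq d ok z hz => ?_
  have h1 : d.ch q .z2a z ≠ 0 ∨ d.ch q .z2b z ≠ 0 := by
    rcases hk with rfl | rfl
    · exact Or.inl hz
    · exact Or.inr hz
  have h2 := (hq d ok z h1).1
  have h3 : 0 ≤ d.N q z ^ 2 / d.m q z ^ 2 := by positivity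
  linarith

/-! ## Zone INF -/

/-- Helper294's form. -/
theorem rowNk_of4 {k : Zo} {M : Cst → Pk n → Q8 (VV n)} {κ₀ ζ₀ : Cst → ℝ}
    (h : EvC fun q => (0 < κ₀ q ∧ 0 < ζ₀ q) ∧ ∀ d : Pk n, PkOk q d → ∀ z,
      H850.E.Nn (M q d) z ∧ 4 * κ₀ q ≤ (M q d).κ z ∧ 4 * (ζ₀ q / q.R) ≤ (M q d).ζ₁ z ∧
        4 * (ζ₀ q / q.R) ≤ (M q d).ζ₂ z) :
    RowNk k M (fun q => 4 * κ₀ q) fun q => 4 * ζ₀ q := by
  refine h.mono fun q hq => ⟨by linarith [hq.1.1], by linarith [hq.1.2], fun d ok z _ => ?_⟩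
  obtain ⟨h1, h2, h3, h4⟩ := hq.2 d ok z
  have e : 4 * ζ₀ q / q.R = 4 * (ζ₀ q / q.R) := by ring
  exact ⟨h1, h2, e.trans_le h3, e.trans_le h4⟩

/-- **Leaf `iS`.** -/
theorem nn_iS (n : ℕ) : RowNk .iS (H380.INF.MiS (n := n)) (fun _ => 4 * (1 / 4))
    fun q => 4 * (1 / 600 * (q.σ * q.M₀) / 4) :=
  rowNk_of4 (H294.E.nn_iS n)

theorem MiH_eq : H168.INF.MiH (n := n) =
    H294.E.MSg (1 / 600) (1 / 400) (1 / 40000) H168.INF.hX H168.INF.hY := by
  funext q d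
  unfold H168.INF.MiH H294.E.MSg H168.INF.lmH H168.INF.muH
  congr 1 <;> funext z <;> ring

/-- **Leaf `iH`.** -/
theorem nn_iH (n : ℕ) : RowNk .iH (H168.INF.MiH (n := n)) (fun _ => 4 * (1 / 4))
    fun q => 4 * (1 / 600 * (q.σ * q.M₀) / 4) := by
  rw [MiH_eq]
  refine rowNk_of4 (κ₀ := fun _ => 1 / 4) (H294.E.nn_of_MSg (a := fun _ => 1 / 600)
    (b := fun _ => 1 / 400) (c := fun _ => 1 / 40000)
    (fun q => ⟨by norm_num, by norm_num, by norm_num⟩) (EvC.pos.mono ?_))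
  rintro q ⟨-, -, -, -, -, -, -, hR⟩ d ok z
  have h1 := ok.Θd0 (by linarith) (d.l z.1)
  have h2 := ok.Θd0 (by linarith) (d.l z.2)
  have h3 := H294.E.M₀_le ok (d.l (d.P z.1) + d.l (d.P z.2))
  exact ⟨by unfold H168.INF.hX H168.INF.hN; linarith, by
    unfold H168.INF.hY H168.INF.hN; linarith⟩

/-! ## The literal letters -/

/-- The literal functions used by the margins. -/
structure LfN (F : Lf n) : Prop where
  kz : F.kz = H942.Pk.kz
  GP : F.GP = H747.A.GG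
  RSn : F.FM .RSn = fun q d => MA d.sx d.sy (d.W q) (H312.S.mRS q d) (1 / 200)
  RSf : F.FM .RSf = fun q d => MA d.sx d.sy (d.W q) (H53.RS.mRSf d q) (1 / 200)
  iH : F.FM .iH = H168.INF.MiH
  iF : F.FM .iF = H303.F.MzF
  iS : F.FM .iS = H380.INF.MiS

/-- The lower bounds on the five leaves. -/
def κF (k : Zo) : Cst → ℝ := match k with
  | .RSn => fun _ => 1 / 2
  | .RSf => fun _ => 1 / 2
  | .iF => fun _ => 1 / 2
  | _ => fun _ => 4 * (1 / 4)

/-- The lower bounds on the five leaves. -/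
def ζF (k : Zo) : Cst → ℝ := match k with
  | .RSn => fun q => q.σ
  | .RSf => fun q => q.σ / 2
  | .iF => fun q => 1 / 100 * q.σ
  | _ => fun q => 4 * (1 / 600 * (q.σ * q.M₀) / 4)

theorem hκ : EvC fun _ => (1 : ℝ) / 200 ≤ 1 / 2 := EvC.of fun _ => by norm_num

/-- **The row for all letters `L` with the literal functions.** -/
theorem rowNn_Lit (hn : 1 ≤ n) {F : Lf n} (hF : LfN F) {L : Lc n} (ok : L.Ok) (h : Lit F L) :
    RowNn (Mz L) (fun q => mn (κL L κF) q / 4) fun q => mn (ζL L (fun _ => 1 / 16) ζF) q / 4 := by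
  refine rowNn_L ok (EvC.of fun _ => by norm_num) (fun k hk => ?_) (fun k hk => ?_)
    (fun k hk => ?_)
  · rw [h.kz, hF.kz]
    exact kz_one hn hk
  · rw [h.GP, hF.GP]
    exact GG_pass n hk
  · rw [h.FM]
    rcases hk with rfl | rfl | rfl | rfl | rfl
    · rw [hF.RSn]
      exact nn_RSn (κ₀ := fun _ => 1 / 200) hκ
    · rw [hF.RSf]
      exact nn_RSf (κ₀ := fun _ => 1 / 200) hκ
    · rw [hF.iH]
      exact nn_iH n
    · rw [hF.iF]
      exact nn_iF (c := 1 / 100) (by norm_num) (κ₀ := fun _ => 1 / 200) hκ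
    · rw [hF.iS]
      exact nn_iS n

theorem noM_κF {k : Zo} : NoM (κF k) := by
  cases k <;> exact fun _ _ _ _ _ _ => rfl

theorem noM_ζF {k : Zo} : NoM (ζF k) := by
  cases k <;> exact fun _ _ _ _ _ _ => rfl

/-- **Field `nn` of `Rest F`.** -/
theorem rest_nn (hn : 1 ≤ n) {F : Lf n} (hF : LfN F) : ∀ L : Lc n, L.Ok → Lit F L →
    ∃ κ₀ ζ₀ : Cst → ℝ, NoM κ₀ ∧ NoM ζ₀ ∧ RowNn (Mz L) κ₀ ζ₀ := fun _ ok h =>
  ⟨_, _, noM_κL ok fun _ _ => noM_κF, noM_ζL ok (noM_const _) fun _ _ => noM_ζF,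
    rowNn_Lit hn hF ok h⟩

/-- **Field `k2` of `Rest F`.** -/
theorem rest_k2 (hn : 1 ≤ n) {F : Lf n} (hF : F.kz = H942.Pk.kz) : ∀ L : Lc n, L.Ok → Lit F L →
    H850.E.RowK2 L := fun L _ h => by
  refine ⟨fun _ => 1, fun _ _ => rfl, ((kz_one hn (Or.inr rfl)).and EvC.pos).mono ?_⟩
  rintro q ⟨h1, -, -, -, -, -, -, -, hR⟩
  refine ⟨one_pos, fun d ok z hz => ?_⟩
  rw [h.kz, hF]
  refine le_trans ?_ (h1 d ok z hz)
  rw [div_le_one (by linarith)]
  linarith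

end Vale.Agent.P088.R2.H997.EP
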