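import Vale.Agent.P088.R2.H997.EP.NNf
import Vale.Agent.P088.R2.H493.EP.CtF0
import Vale.Agent.P088.R2.H850.E.F2b
import Vale.Agent.P088.R2.H912.A.Sup
import Vale.Agent.P088.R2.H935.G.All

/-!
# P088, stage 3, EST': the rows `Rest F` for the literal functions `F0`

`rest0`: `Rest (F0 n)` from the fields which are not closed yet.
-/

open Set Filter
open scoped ContDiff Topology Matrix

noncomputable section

namespace Vale.Agent.P088.R2.H997.EP

open Vale.Agent.P088.LR Vale.Agent.P088.HY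
open Vale.Agent.P088.R2.H31.EP
open Vale.Agent.P088.R2.H551.E
open Vale.Agent.P088.R2.H867.EP (Zo)
open Vale.Agent.P088.R2.H455.E
open Vale.Agent.P088.R2.H558.G (Lf Lit Rest PayEG)
open Vale.Agent.P088.R2.H591.X (F0)

variable {n : ℕ}

/-- The functions `F0` are the literal functions of row NN. -/
theorem lfN_F0 (n : ℕ) : LfN (F0 n) where
  kz := rfl
  GP := rfl
  RSn := rfl
  RSf := rfl
  iH := rfl
  iF := rfl
  iS := rfl

/-- The rows which are not closed yet. -/
structure RestO (n : ℕ) : Prop where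
  pay : ∀ L : Lc n, L.Ok → Lit (F0 n) L → ∀ k j, PayEG L k j
  gh : H935.G.RowGH n

/-- **`Rest (F0 n)`.** -/
theorem rest0 (hn : 1 ≤ n) (h : RestO n) : Rest (F0 n) where
  ct := H493.EP.ctF0
  nn := rest_nn hn (lfN_F0 n)
  pay := h.pay
  gl := H935.G.gl_all hn (lfN_F0 n) h.gh
  k2 := rest_k2 hn rfl
  f2 := H850.E.rowF2 hn
  sup := H912.A.rowSup n

end Vale.Agent.P088.R2.H997.EP
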