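import Vale.Agent.P088.R2.H509.EP.Side
import Vale.Agent.P088.R2.H850.E.Ws
import Vale.Agent.P088.R2.H165.Tab
import Vale.Agent.P088.R2.H660.P.Let
import Vale.Agent.P088.R2.H509.E.PT
import Vale.Agent.P088.R2.H606.EP.Slp

/-!
# P088, stage 3, EST': row NN, the signs of the letters and the lower bounds of the gains

`Nk M k t z`: the eight letters of `M` are nonnegative at `z`, `κ ≥ k`, `ζ_i ≥ t`. One lemma for each
table (`M0`, `MI`, `MII`, `MB`, `MT1`, `MT2`, `MA`, `MP`, `MPm`), `Fc q d`: the elementary facts of the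
package (`F ≥ 0`, `N ≥ 1`, `r² ≥ 0`, ..).
-/

open Set Filter
open scoped ContDiff Topology Matrix

set_option linter.unusedSectionVars false

noncomputable section

namespace Vale.Agent.P088.R2.H997.EP

open Vale.Agent.P088.LR Vale.Agent.P088.HY
open Vale.Agent.P088.R2.H464.Cu (mid dif rq bf)
open Vale.Agent.P088.R2.H222 (dl)
open Vale.Agent.P088.R2.H31.EP
open Vale.Agent.P088.R2.H551.E
open Vale.Agent.P088.R2.H850.E (Nn)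
open Vale.Agent.P088.R2.H165.Tab
open Vale.Agent.P088.R2.H961.GW (Sl)
open Vale.Agent.P088.R2.H509.PT (MT1 MT2)
open Vale.Agent.P088.R2.H747.SW (MA)
open Vale.Agent.P088.R2.H660.P (MP MPm)

/-! ## The letters at a point -/

section gen

variable {E ι : Type*} [NormedAddCommGroup E] [NormedSpace ℝ E] [Fintype ι]
variable {M M' : Q8 E} {k k' t t' c s κ₀ ρ₁ : ℝ} {z : E} {ν : Nu E} {N m G W f : E → ℝ}
  {σ τ : Sl E ι}

/-- The letters at a point: nonnegative, `κ ≥ k`, `ζ_i ≥ t`. -/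
structure Nk (M : Q8 E) (k t : ℝ) (z : E) : Prop where
  nn : Nn M z
  κ : k ≤ M.κ z
  ζ₁ : t ≤ M.ζ₁ z
  ζ₂ : t ≤ M.ζ₂ z

omit [NormedAddCommGroup E] [NormedSpace ℝ E] in
theorem Nk.mono (h : Nk M k t z) (hk : k' ≤ k) (ht : t' ≤ t) : Nk M k' t' z :=
  ⟨h.nn, hk.trans h.κ, ht.trans h.ζ₁, ht.trans h.ζ₂⟩

omit [NormedAddCommGroup E] [NormedSpace ℝ E] in
theorem nn_add (h : Nn M z) (h' : Nn M' z) : Nn (M + M') z :=
  ⟨add_nonneg h.κ h'.κ, add_nonneg h.ζ₁ h'.ζ₁, add_nonneg h.ζ₂ h'.ζ₂, add_nonneg h.ζy h'.ζy,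
    add_nonneg h.w₁ h'.w₁, add_nonneg h.w₂ h'.w₂, add_nonneg h.wb h'.wb, add_nonneg h.wc h'.wc⟩

omit [NormedAddCommGroup E] [NormedSpace ℝ E] in
theorem Nk.add (h : Nk M k t z) (h' : Nn M' z) : Nk (M + M') k t z :=
  ⟨nn_add h.nn h', le_add_of_le_of_nonneg h.κ h'.κ, le_add_of_le_of_nonneg h.ζ₁ h'.ζ₁,
    le_add_of_le_of_nonneg h.ζ₂ h'.ζ₂⟩

omit [NormedAddCommGroup E] [NormedSpace ℝ E] in
theorem nn_sm (h : Nn M z) (hf : 0 ≤ f z) : Nn (M.sm f) z :=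
  ⟨mul_nonneg hf h.κ, mul_nonneg hf h.ζ₁, mul_nonneg hf h.ζ₂, mul_nonneg hf h.ζy,
    mul_nonneg hf h.w₁, mul_nonneg hf h.w₂, mul_nonneg hf h.wb, mul_nonneg hf h.wc⟩

omit [NormedAddCommGroup E] [NormedSpace ℝ E] in
theorem Nk.sm (h : Nk M k t z) (hf : c ≤ f z) (hc : 0 ≤ c) (hk : 0 ≤ k) (ht : 0 ≤ t) :
    Nk (M.sm f) (c * k) (c * t) z :=
  ⟨nn_sm h.nn (hc.trans hf), mul_le_mul hf h.κ hk (hc.trans hf),
    mul_le_mul hf h.ζ₁ ht (hc.trans hf), mul_le_mul hf h.ζ₂ ht (hc.trans hf)⟩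

omit [NormedSpace ℝ E] in
/-- Region 0. -/
theorem nk_M0 (hc : 0 ≤ c) (hs : 0 ≤ s) (hE : 0 ≤ ν.En z) (hN : 1 ≤ ν.N z) :
    Nk (M0 ν c s) c (c * s) z := by
  have h1 : s ≤ ν.En z + s * ν.N z := by nlinarith
  have h2 : 0 ≤ ν.En z + s * ν.N z := hs.trans h1
  have h3 : 0 ≤ (ν.En z + s * ν.N z) * ν.N z ^ 2 := mul_nonneg h2 (sq_nonneg _)
  exact ⟨⟨hc, mul_nonneg hc h2, mul_nonneg hc h2, mul_nonneg hc hE, mul_nonneg hc h3,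
    mul_nonneg hc h3, le_rfl, le_rfl⟩, le_rfl, mul_le_mul_of_nonneg_left h1 hc,
    mul_le_mul_of_nonneg_left h1 hc⟩

omit [NormedSpace ℝ E] in
/-- Region I. -/
theorem nk_MI (hc : 0 ≤ c) (hE : 0 ≤ ν.En z) (hm : 0 ≤ ν.m z) (h1 : 0 ≤ ν.F₁ z)
    (h2 : 0 ≤ ν.F₂ z) : Nk (MI ν c) c c z := by
  have h3 : 0 ≤ ν.wI z := by unfold Nu.wI; positivity
  exact ⟨⟨hc, hc, hc, mul_nonneg hc hE, mul_nonneg hc h1, mul_nonneg hc h2,
    mul_nonneg hc (sq_nonneg _), mul_nonneg hc h3⟩, le_rfl, le_rfl, le_rfl⟩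

omit [NormedSpace ℝ E] in
/-- Zone II. -/
theorem nk_MII (hk : t ≤ ν.k z) (h0 : 0 ≤ ν.k z) (hr : 0 ≤ ν.r2 z) (h1 : 0 ≤ ν.F₁ z)
    (h2 : 0 ≤ ν.F₂ z) : Nk (MII ν) (1 / 2) (1 / 2 * t) z := by
  have h3 : 0 ≤ 1 / 2 * ν.k z := by positivity
  have h4 : 0 ≤ 1 / 4 * (ν.r2 z)⁻¹ := by positivity
  have h5 : 1 / 2 * t ≤ 1 / 2 * ν.k z := by linarith
  exact ⟨⟨(by norm_num : (0 : ℝ) ≤ 1 / 2), h3, h3, h4, by simp only [MII]; positivity,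
    by simp only [MII]; positivity, sq_nonneg _, le_rfl⟩, le_rfl, h5, h5⟩

omit [NormedSpace ℝ E] in
/-- The core. -/
theorem nk_MB (hc : 0 ≤ c) (hE : 0 ≤ ν.En z) (hm : 0 ≤ ν.m z) (h1 : 0 ≤ ν.F₁ z)
    (h2 : 0 ≤ ν.F₂ z) : Nk (MB ν c) c c z := by
  have h3 : 0 ≤ ν.wB z := by unfold Nu.wB; positivity
  have h4 : 0 ≤ ν.En z / (1 + ν.m z) := by positivity
  exact ⟨⟨hc, hc, hc, mul_nonneg hc h4, mul_nonneg hc h1, mul_nonneg hc h2,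
    mul_nonneg hc (sq_nonneg _), mul_nonneg hc h3⟩, le_rfl, le_rfl, le_rfl⟩

omit [NormedSpace ℝ E] in
/-- The tube `W_x = 0`. -/
theorem nk_MT1 (hc : 0 ≤ c) (hN : 1 ≤ N z) : Nk (MT1 c N) 1 c z := by
  have h0 : 0 ≤ N z := zero_le_one.trans hN
  have h1 : c ≤ c * N z := le_mul_of_one_le_right hc hN
  exact ⟨⟨zero_le_one, hc.trans h1, hc.trans h1, le_rfl, mul_nonneg hc (pow_nonneg h0 _),
    mul_nonneg hc (pow_nonneg h0 _), le_rfl, le_rfl⟩, le_rfl, h1, h1⟩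

omit [NormedSpace ℝ E] in
/-- The tube `W_y = 0`. -/
theorem nk_MT2 (hc : 0 ≤ c) (hN : 1 ≤ N z) : Nk (MT2 c N) 1 c z := by
  have h0 : 0 ≤ N z := zero_le_one.trans hN
  have h1 : c ≤ c * N z := le_mul_of_one_le_right hc hN
  exact ⟨⟨zero_le_one, hc.trans h1, hc.trans h1, le_rfl, mul_nonneg hc (pow_nonneg h0 _),
    mul_nonneg hc (pow_nonneg h0 _), le_rfl, le_rfl⟩, le_rfl, h1, h1⟩

/-- Zone A and the leaves with the margin `m`. -/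
theorem nk_MA (hκ : κ₀ ≤ 1) (ht : t ≤ m z) (h0 : 0 ≤ m z) (h1 : 0 ≤ σ.F W z)
    (h2 : 0 ≤ τ.F W z) : Nk (MA σ τ W m κ₀) (1 - κ₀) t z := by
  have h3 : 0 ≤ 1 / 3 * (m z * σ.F W z) := by positivity
  have h4 : 0 ≤ 1 / 3 * (m z * τ.F W z) := by positivity
  exact ⟨⟨sub_nonneg.2 hκ, h0, h0, le_rfl, h3, h4, le_rfl, le_rfl⟩, le_rfl, ht, ht⟩

/-- The pass, `W_x = 0`. -/
theorem nk_MP (hρ : 0 ≤ ρ₁) (ht : t ≤ G z) (h0 : 0 ≤ G z) (h1 : 0 ≤ σ.F W z)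
    (h2 : 0 ≤ τ.F W z) : Nk (MP σ τ W G ρ₁) (1 / 4) (ρ₁ * t) z := by
  have h3 : 0 ≤ ρ₁ * (G z * (G z + σ.F W z)) := by positivity
  have h4 : 0 ≤ ρ₁ * (G z * τ.F W z) := by positivity
  have h5 : ρ₁ * t ≤ ρ₁ * G z := mul_le_mul_of_nonneg_left ht hρ
  exact ⟨⟨(by norm_num : (0 : ℝ) ≤ 1 / 4), mul_nonneg hρ h0, mul_nonneg hρ h0, le_rfl, h3, h4, le_rfl, le_rfl⟩,
    le_rfl, h5, h5⟩

/-- The pass, `W_y = 0`. -/
theorem nk_MPm (hρ : 0 ≤ ρ₁) (ht : t ≤ G z) (h0 : 0 ≤ G z) (h1 : 0 ≤ σ.F W z)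
    (h2 : 0 ≤ τ.F W z) : Nk (MPm σ τ W G ρ₁) (1 / 4) (ρ₁ * t) z := by
  have h3 : 0 ≤ ρ₁ * (G z * σ.F W z) := by positivity
  have h4 : 0 ≤ ρ₁ * (G z * (G z + τ.F W z)) := by positivity
  have h5 : ρ₁ * t ≤ ρ₁ * G z := mul_le_mul_of_nonneg_left ht hρ
  exact ⟨⟨(by norm_num : (0 : ℝ) ≤ 1 / 4), mul_nonneg hρ h0, mul_nonneg hρ h0, le_rfl, h3, h4, le_rfl, le_rfl⟩,
    le_rfl, h5, h5⟩

end gen

variable {n : ℕ} {q : Cst} {d : Pk n} {z : VV n}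

/-! ## The facts of the package -/

/-- A form close to `|v|²` is nonnegative. -/
theorem bf_nonneg {G : Matrix (Fin n) (Fin n) ℝ} {δ : ℝ} (h : ∀ i j, |G i j - dl i j| ≤ δ)
    (hδ : n * δ ≤ 1) (v : V n) : 0 ≤ bf G v v := by
  have h1 := abs_le.1 (bf_close h v)
  have h2 : 0 ≤ ∑ i, v i ^ 2 := Finset.sum_nonneg fun _ _ => sq_nonneg _
  nlinarith [h1.1]

theorem s₂_close (h : PkOk q d) (x : V n) (i j : Fin n) : |d.s₂ x i j - dl i j| ≤ q.ε := by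
  have := h.rg.cl₂ i j 0 (by norm_num) x
  rwa [norm_iteratedFDeriv_zero, pow_zero, mul_one, Real.norm_eq_abs] at this

theorem Fx_nonneg (h : PkOk q d) (hε : n * q.ε ≤ 1) (f : VV n → ℝ) (z : VV n) :
    0 ≤ d.sx.F f z := bf_nonneg (h.s₁_close z.1) hε fun i => d.sx.D i f z

theorem Fy_nonneg (h : PkOk q d) (hε : n * q.ε ≤ 1) (f : VV n → ℝ) (z : VV n) :
    0 ≤ d.sy.F f z := bf_nonneg (s₂_close h z.2) hε fun i => d.sy.D i f z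

/-- The elementary facts. -/
structure Fc (q : Cst) (d : Pk n) : Prop where
  lit : LitSm q d
  R : 1 ≤ q.R
  σ : 0 < q.σ
  M : 1 ≤ q.M₀
  Fx : ∀ f z, 0 ≤ d.sx.F f z
  Fy : ∀ f z, 0 ≤ d.sy.F f z
  N : ∀ u, 1 ≤ deriv d.Φ u
  K : ∀ u, 0 < deriv (deriv d.Φ) u
  r2 : ∀ z, 0 ≤ d.r2 z
  qr : ∀ z, d.r2 z ≤ 2 * qq z
  G : ∀ f r, 0 < r → 0 < q.D 1 0 (f, r)

theorem EvC.fc (n : ℕ) : EvC fun q => ∀ d : Pk n, PkOk q d → Fc q d := by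
  refine (((EvC.litSm n).and (EvC.rq n)).and
    ((EvC.ε_le (fun _ => 1 / ((n : ℝ) + 1)) fun _ => rfl).and EvC.pos)).mono ?_
  rintro q ⟨⟨h1, h2⟩, h3, h4⟩ d h
  have h5 := h3 (by positivity)
  have hn : (0 : ℝ) ≤ n := Nat.cast_nonneg n
  have hε0 : 0 < q.ε := h4.2.2.2.2.1
  have hε : n * q.ε ≤ 1 := by
    rw [le_div_iff₀ (by positivity)] at h5
    nlinarith
  have hM : 1 ≤ q.M₀ := h4.2.2.1
  have hR : 1 ≤ q.R := h4.2.2.2.2.2.2.2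
  exact
    { lit := h1 d h
      R := hR
      σ := h4.2.1.2.1
      M := hM
      Fx := Fx_nonneg h hε
      Fy := Fy_nonneg h hε
      N := fun u => hM.trans (h.N_ge u)
      K := h.top.k0
      r2 := fun z => mul_nonneg zero_le_two ((h2 d h).2 z).1
      qr := fun z => ((h2 d h).2 z).2.2
      G := fun f r hr => h.sl.G_pos (f, r) hr }

theorem Fc.E (_ : Fc q d) (z : VV n) : 0 < d.E q z := Real.exp_pos _

theorem Fc.m (h : Fc q d) (z : VV n) : 0 ≤ d.m q z := mul_nonneg (h.E z).le (h.r2 z)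

theorem Fc.s (h : Fc q d) : 0 < q.σ / q.R := div_pos h.σ (by linarith [h.R])

/-- `r > 0` off the diagonal. -/
theorem Fc.r_pos (h : Fc q d) {k : H867.EP.Zo} (hz : d.ch q k z ≠ 0) (hk : H867.EP.Off k)
    (hc : 0 < q.c₀) : 0 < d.r2 z := lt_of_lt_of_le (by positivity) (sd_off hz hk h.lit.cp)

end Vale.Agent.P088.R2.H997.EP
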