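import Vale.Agent.P088.R2.H997.EP.NNk
import Vale.Agent.P088.R2.H747.A.Rows

/-!
# P088, stage 3, EST': row NN, the leaves of zone A
-/

open Set Filter
open scoped ContDiff Topology Matrix

noncomputable section

namespace Vale.Agent.P088.R2.H997.EP

open Vale.Agent.P088.LR Vale.Agent.P088.HY
open Vale.Agent.P088.R2.H31.EP
open Vale.Agent.P088.R2.H551.E
open Vale.Agent.P088.R2.H867.EP (Zo)
open Vale.Agent.P088.R2.H747.SW (MA)
open Vale.Agent.P088.R2.H747.A (mA GG NG)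

variable {n : ℕ} {k : Zo}

theorem off_A (hk : k = .A1 ∨ k = .A2 ∨ k = .Af) : H867.EP.Off k := by
  unfold H867.EP.Off
  tauto

/-- `G > 0` off the diagonal. -/
theorem GG_pos {q : Cst} {d : Pk n} {z : VV n} (f : Fc q d) (h : 0 < d.r2 z) : 0 < GG q d z :=
  f.G _ _ (Real.sqrt_pos.2 h)

/-- **Leaves `A1`, `A2`, `Af`.** -/
theorem nn_A {μ₀ κ₀ : Cst → ℝ} (hμ : EvC fun q => 0 ≤ μ₀ q) (hκ : EvC fun q => κ₀ q ≤ 1 / 2)
    (hk : k = .A1 ∨ k = .A2 ∨ k = .Af) :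
    RowNk k (fun q (d : Pk n) => MA d.sx d.sy (d.W q) (mA μ₀ q d) (κ₀ q)) (fun _ => 1 / 2)
      fun q => q.σ / 400 := by
  refine nn_MA hκ (EvC.pos.mono fun q hq => div_pos hq.2.1.2.1 (by norm_num))
    ((hμ.and EvC.pos).mono fun q hq d ok f z hz => ?_)
  have h1 := f.r_pos hz (off_A hk) hq.2.1.2.2.2.2.2.1
  have h2 := GG_pos f h1
  have h3 : 0 ≤ μ₀ q * (GG q d z / H747.A.rr d z) :=
    mul_nonneg hq.1 (div_nonneg h2.le (Real.sqrt_nonneg _))
  have h4 : 1 ≤ NG q d z := by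
    have := f.N (d.u q z)
    unfold H747.A.NG
    unfold Pk.N
    linarith
  have h5 : q.σ / 400 / q.R = q.σ / (400 * q.R) := by rw [div_div]
  have h6 : 0 ≤ q.σ / (400 * q.R) := by
    rw [← h5]
    exact div_nonneg (div_nonneg f.σ.le (by norm_num)) (by linarith [f.R])
  have h7 := le_mul_of_one_le_right h6 h4
  unfold H747.A.mA
  rw [h5]
  linarith

end Vale.Agent.P088.R2.H997.EP
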