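import Vale.Agent.P088.R2.H997.EP.NN

/-!
# P088, stage 3, EST': row NN, leaf by leaf

`RowNk k M κ₀ ζ₀`: the letters of the leaf `k` are nonnegative, `κ ≥ κ₀`, `ζ_i ≥ ζ₀ / R`, where the
leaf is alive.
-/

open Set Filter
open scoped ContDiff Topology Matrix

noncomputable section

namespace Vale.Agent.P088.R2.H997.EP

open Vale.Agent.P088.LR Vale.Agent.P088.HY
open Vale.Agent.P088.R2.H464.Cu (mid dif rq bf)
open Vale.Agent.P088.R2.H31.EP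
open Vale.Agent.P088.R2.H551.E
open Vale.Agent.P088.R2.H850.E (Nn)
open Vale.Agent.P088.R2.H165.Tab
open Vale.Agent.P088.R2.H867.EP (Zo)
open Vale.Agent.P088.R2.H509.PT (MT1 MT2)
open Vale.Agent.P088.R2.H747.SW (MA)
open Vale.Agent.P088.R2.H660.P (MP MPm)

variable {n : ℕ}

/-- Row NN for the leaf `k`. -/
def RowNk (k : Zo) (M : Cst → Pk n → Q8 (VV n)) (κ₀ ζ₀ : Cst → ℝ) : Prop := EvC fun q =>
  0 < κ₀ q ∧ 0 < ζ₀ q ∧ ∀ d : Pk n, PkOk q d → ∀ z, d.ch q k z ≠ 0 →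
    Nk (M q d) (κ₀ q) (ζ₀ q / q.R) z

/-- The numbers of a point of the package; `kz` is the convexity weight of zone II. -/
def nuP (kz : Cst → Pk n → VV n → ℝ) (q : Cst) (d : Pk n) : Nu (VV n) where
  En := d.E q
  N := d.N q
  K := d.Kf q
  r2 := d.r2
  m := d.m q
  k := kz q d
  F₁ := d.sx.F (d.W q)
  F₂ := d.sy.F (d.W q)

variable {kz : Cst → Pk n → VV n → ℝ} {c κ ζ : Cst → ℝ} {k : Zo}
  {M M' : Cst → Pk n → Q8 (VV n)}

/-- The form in which the rows are proved. -/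
theorem rowNk_of (hc : EvC fun q => 0 < κ q ∧ 0 < ζ q)
    (h : EvC fun q => 0 < κ q ∧ 0 < ζ q → ∀ d : Pk n, PkOk q d → Fc q d →
      ∀ z, d.ch q k z ≠ 0 → Nk (M q d) (κ q) (ζ q / q.R) z) : RowNk k M κ ζ :=
  ((hc.and h).and (EvC.fc n)).mono fun _ hq =>
    ⟨hq.1.1.1, hq.1.1.2, fun d ok => hq.1.2 hq.1.1 d ok (hq.2 d ok)⟩

/-- Adding nonnegative letters. -/
theorem RowNk.add (h : RowNk k M κ ζ)
    (h' : EvC fun q => ∀ d : Pk n, PkOk q d → ∀ z, d.ch q k z ≠ 0 → Nn (M' q d) z) :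
    RowNk k (fun q d => M q d + M' q d) κ ζ :=
  (h.and h').mono fun _ hq => ⟨hq.1.1, hq.1.2.1, fun d ok z hz =>
    (hq.1.2.2 d ok z hz).add (hq.2 d ok z hz)⟩

/-- A quarter of the letters. -/
theorem RowNk.sm (h : RowNk k M κ ζ) {a : ℝ} (ha : 0 < a) :
    RowNk k (fun q d => (M q d).sm fun _ => a) (fun q => a * κ q) (fun q => a * ζ q) :=
  (h.and EvC.pos).mono fun q hq => by
    have hR : 0 < q.R := by linarith [hq.2.2.2.2.2.2.2.2]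
    refine ⟨mul_pos ha hq.1.1, mul_pos ha hq.1.2.1, fun d ok z hz => ?_⟩
    have h1 := (hq.1.2.2 d ok z hz).sm (f := fun _ => a) le_rfl ha.le hq.1.1.le
      (div_nonneg hq.1.2.1.le hR.le)
    rw [mul_div_assoc]
    exact h1

theorem div_R_le {a R : ℝ} (ha : 0 ≤ a) (hR : 1 ≤ R) : a / R ≤ a := div_le_self ha hR

/-! ## The leaves near the diagonal -/

/-- **Leaf `z0`.** -/
theorem nn_z0 {s : Cst → ℝ} (hc : EvC fun q => 0 < c q) (hs : EvC fun q => 0 < s q) :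
    RowNk .z0 (fun q d => M0 (nuP (n := n) kz q d) (c q) (s q * (q.σ / q.R))) c
      fun q => c q * (s q * q.σ) := by
  refine rowNk_of (((hc.and hs).and EvC.pos).mono fun q hq =>
    ⟨hq.1.1, mul_pos hq.1.1 (mul_pos hq.1.2 hq.2.2.1.2.1)⟩)
    ((hc.and hs).mono fun q hq h0 d ok f z hz => ?_)
  rw [mul_div_assoc, mul_div_assoc]
  exact nk_M0 h0.1.le (mul_nonneg hq.2.le f.s.le) (f.E z).le (f.N _)

/-- **Leaf `zI`** (the part of region I). -/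
theorem nn_zI (hc : EvC fun q => 0 < c q) :
    RowNk .zI (fun q d => MI (nuP (n := n) kz q d) (c q)) c c := by
  refine rowNk_of (hc.mono fun q hq => ⟨hq, hq⟩) (EvC.of fun q h0 d ok f z hz => ?_)
  exact (nk_MI (ν := nuP kz q d) h0.1.le (f.E z).le (f.m z) (f.Fx _ z) (f.Fy _ z)).mono le_rfl
    (div_R_le h0.1.le f.R)

/-- **Leaf `zB`.** -/
theorem nn_zB (hc : EvC fun q => 0 < c q) :
    RowNk .zB (fun q d => MB (nuP (n := n) kz q d) (c q)) c c := by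
  refine rowNk_of (hc.mono fun q hq => ⟨hq, hq⟩) (EvC.of fun q h0 d ok f z hz => ?_)
  exact (nk_MB (ν := nuP kz q d) h0.1.le (f.E z).le (f.m z) (f.Fx _ z) (f.Fy _ z)).mono le_rfl
    (div_R_le h0.1.le f.R)

/-- **Leaves `z2a`, `z2b`** from `k ≥ 1`. -/
theorem nn_z2 (hk : EvC fun q => ∀ d : Pk n, PkOk q d → ∀ z, d.ch q k z ≠ 0 → 1 ≤ kz q d z) :
    RowNk k (fun q d => MII (nuP (n := n) kz q d)) (fun _ => 1 / 2) fun _ => 1 / 2 := by
  refine rowNk_of (EvC.of fun q => ⟨by norm_num, by norm_num⟩)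
    (hk.mono fun q hk h0 d ok f z hz => ?_)
  have h1 := hk d ok z hz
  have h2 : 0 ≤ kz q d z := zero_le_one.trans h1
  refine (nk_MII (ν := nuP kz q d) (t := 1) h1 h2 (f.r2 z) (f.Fx _ z) (f.Fy _ z)).mono le_rfl ?_
  rw [mul_one]
  exact div_R_le (by norm_num) f.R

/-! ## The tubes -/

/-- **Leaf `T1`.** -/
theorem nn_T1 (hc : EvC fun q => 0 < c q) :
    RowNk .T1 (fun q (d : Pk n) => MT1 (c q) fun z => deriv d.Φ (d.u0 z)) (fun _ => 1) c := by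
  refine rowNk_of (hc.mono fun q hq => ⟨one_pos, hq⟩) (EvC.of fun q h0 d ok f z hz => ?_)
  exact (nk_MT1 (N := fun z => deriv d.Φ (d.u0 z)) h0.2.le (f.N (d.u0 z))).mono le_rfl
    (div_R_le h0.2.le f.R)

/-- **Leaf `T2`.** -/
theorem nn_T2 (hc : EvC fun q => 0 < c q) :
    RowNk .T2 (fun q (d : Pk n) => MT2 (c q) fun z => deriv d.Φ (d.u0 z)) (fun _ => 1) c := by
  refine rowNk_of (hc.mono fun q hq => ⟨one_pos, hq⟩) (EvC.of fun q h0 d ok f z hz => ?_)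
  exact (nk_MT2 (N := fun z => deriv d.Φ (d.u0 z)) h0.2.le (f.N (d.u0 z))).mono le_rfl
    (div_R_le h0.2.le f.R)

/-! ## The leaves with the margin `MA` -/

/-- A leaf with the letters `MA`, `m ≥ ζ / R`. -/
theorem nn_MA {m : Cst → Pk n → VV n → ℝ} {κ₀ : Cst → ℝ} (hκ : EvC fun q => κ₀ q ≤ 1 / 2)
    (hζ : EvC fun q => 0 < ζ q)
    (hm : EvC fun q => ∀ d : Pk n, PkOk q d → Fc q d → ∀ z, d.ch q k z ≠ 0 →
      ζ q / q.R ≤ m q d z) :
    RowNk k (fun q d => MA d.sx d.sy (d.W q) (m q d) (κ₀ q)) (fun _ => 1 / 2) ζ := by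
  refine rowNk_of (hζ.mono fun q hq => ⟨by norm_num, hq⟩)
    ((hκ.and hm).mono fun q hq h0 d ok f z hz => ?_)
  have h1 := hq.2 d ok f z hz
  have hR : 0 < q.R := by linarith [f.R]
  have h2 : 0 ≤ m q d z := (div_nonneg h0.2.le hR.le).trans h1
  exact (nk_MA (by linarith [hq.1]) h1 h2 (f.Fx _ z) (f.Fy _ z)).mono (by linarith [hq.1]) le_rfl

/-- **Leaf `RSn`**: `m = (σ / R) NG`. -/
theorem nn_RSn {κ₀ : Cst → ℝ} (hκ : EvC fun q => κ₀ q ≤ 1 / 2) :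
    RowNk .RSn (fun q (d : Pk n) => MA d.sx d.sy (d.W q) (fun z => q.σ / q.R * d.NG q z) (κ₀ q))
      (fun _ => 1 / 2) fun q => q.σ := by
  refine nn_MA hκ (EvC.pos.mono fun q hq => hq.2.1.2.1) (EvC.of fun q d ok f z hz => ?_)
  exact le_mul_of_one_le_right f.s.le (f.M.trans (f.lit.NGg z))

theorem prR_ge (e₁ : ℝ) : 0 < prR e₁ := prR_pos e₁

/-- **Leaf `RSf`**: `m = (σ / (2 R)) (Φ' + G)`. -/
theorem nn_RSf {κ₀ : Cst → ℝ} (hκ : EvC fun q => κ₀ q ≤ 1 / 2) :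
    RowNk .RSf (fun q (d : Pk n) => MA d.sx d.sy (d.W q) (fun z => q.σ / (2 * q.R) *
      (deriv d.Φ (d.u0 z) + q.D 1 0 (d.u0 z + Real.log (prS q.e₁ (qq z)), √(qq z)))) (κ₀ q))
      (fun _ => 1 / 2) fun q => q.σ / 2 := by
  refine nn_MA hκ (EvC.pos.mono fun q hq => half_pos hq.2.1.2.1) (EvC.of fun q d ok f z hz => ?_)
  have h1 : prR q.e₁ ^ 2 ≤ d.r2 z := sd_RSf hz f.lit.cp
  have h2 : 0 < prR q.e₁ ^ 2 := pow_pos (prR_pos _) 2
  have h3 : 0 < qq z := by linarith [f.qr z]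
  have h4 := f.G (d.u0 z + Real.log (prS q.e₁ (qq z))) (√(qq z)) (Real.sqrt_pos.2 h3)
  have h5 := f.N (d.u0 z)
  have h6 : q.σ / 2 / q.R = q.σ / (2 * q.R) := by rw [div_div]
  have h7 : 0 ≤ q.σ / (2 * q.R) := by
    rw [← h6]
    exact div_nonneg (half_pos f.σ).le (by linarith [f.R])
  rw [h6]
  exact le_mul_of_one_le_right h7 (by linarith)

/-! ## The passes -/

/-- **Leaf `P1`** from `G ≥ a`. -/
theorem nn_P1 {G : Cst → Pk n → VV n → ℝ} {ρ₁ a : Cst → ℝ}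
    (hρ : EvC fun q => 0 < ρ₁ q ∧ 0 < a q)
    (hG : EvC fun q => ∀ d : Pk n, PkOk q d → ∀ z, d.ch q k z ≠ 0 → a q ≤ G q d z) :
    RowNk k (fun q d => MP d.sx d.sy (d.W q) (G q d) (ρ₁ q)) (fun _ => 1 / 4)
      fun q => ρ₁ q * a q := by
  refine rowNk_of (hρ.mono fun q hq => ⟨by norm_num, mul_pos hq.1 hq.2⟩)
    ((hρ.and hG).mono fun q hq h0 d ok f z hz => ?_)
  have h1 := hq.2 d ok z hz
  exact (nk_MP hq.1.1.le h1 (hq.1.2.le.trans h1) (f.Fx _ z) (f.Fy _ z)).mono le_rfl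
    (div_R_le h0.2.le f.R)

/-- **Leaf `P2`** from `G ≥ a`. -/
theorem nn_P2 {G : Cst → Pk n → VV n → ℝ} {ρ₁ a : Cst → ℝ}
    (hρ : EvC fun q => 0 < ρ₁ q ∧ 0 < a q)
    (hG : EvC fun q => ∀ d : Pk n, PkOk q d → ∀ z, d.ch q k z ≠ 0 → a q ≤ G q d z) :
    RowNk k (fun q d => MPm d.sx d.sy (d.W q) (G q d) (ρ₁ q)) (fun _ => 1 / 4)
      fun q => ρ₁ q * a q := by
  refine rowNk_of (hρ.mono fun q hq => ⟨by norm_num, mul_pos hq.1 hq.2⟩)
    ((hρ.and hG).mono fun q hq h0 d ok f z hz => ?_)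
  have h1 := hq.2 d ok z hz
  exact (nk_MPm hq.1.1.le h1 (hq.1.2.le.trans h1) (f.Fx _ z) (f.Fy _ z)).mono le_rfl
    (div_R_le h0.2.le f.R)

end Vale.Agent.P088.R2.H997.EP
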