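import Vale.Agent.P088.R2.H997.EP.NNk
import Vale.Agent.P088.R2.H710.EP.GQ

/-!
# P088, stage 3, EST': row NN, the passes

`G0_ge`: `G₀ ≥ NG / 8` on the leaves `P1`, `P2`.
-/

open Set Filter
open scoped ContDiff Topology Matrix

noncomputable section

namespace Vale.Agent.P088.R2.H997.EP

open Vale.Agent.P088.LR Vale.Agent.P088.HY
open Vale.Agent.P088.R2.H31.EP
open Vale.Agent.P088.R2.H551.E
open Vale.Agent.P088.R2.H867.EP (Zo)
open Vale.Agent.P088.R2.H710.GP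
open Vale.Agent.P088.R2.H660.P (MP MPm)

variable {n : ℕ} {q : Cst} {d : Pk n} {z : VV n} {k : Zo}

theorem Lz_le {r : ℝ} (hr : 0 < r) : H644.Lz 2 r ≤ 2 * (1 + 1 / r) := by
  have e : 2 * r / 2 = r := by ring
  have hs : 0 < Real.sinh r := Real.sinh_pos_iff.2 hr
  unfold H644.Lz
  rw [e, div_le_iff₀ hs]
  have h1 : Real.cosh r - Real.sinh r = Real.exp (-r) := Real.cosh_sub_sinh r
  have h2 : Real.exp (-r) ≤ 1 := Real.exp_le_one_iff.2 (by linarith)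
  have h3 : r ≤ Real.sinh r := Real.self_le_sinh_iff.2 hr.le
  have h4 : 1 ≤ 1 / r * Real.sinh r := by
    rw [one_div, ← div_eq_inv_mul, one_le_div hr]
    exact h3
  nlinarith

/-- `L ≤ 5` for `|x - y| ≥ 7 / 10`. -/
theorem prL_le (hr : H509.Rad.Ok q.e₁ rp) {r : ℝ} (h : 7 / 10 ≤ r) : prL q.e₁ r ≤ 5 := by
  have h0 : 0 < r := by linarith
  have h1 : prL q.e₁ r ≤ H644.Lz 2 r := hr.pp.Lf_le h0
  have h2 := Lz_le h0
  have h3 : 1 / r ≤ 10 / 7 := by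
    rw [div_le_div_iff₀ h0 (by norm_num)]
    linarith
  linarith

theorem rr_ge (hq : GC q) (f : Fc q d) (hz : d.ch q k z ≠ 0) (hk : k = .P1 ∨ k = .P2 ∨ k = .A2) :
    7 / 10 ≤ rr z := by
  have h1 := sd_P hz hk f.lit.cp
  have hp := Cst.p₁_ge hq.rad
  have h2 : 1 / 2 ≤ rr z ^ 2 := by
    rw [rr_sq]
    nlinarith [f.qr z]
  nlinarith [rr_nn z]

theorem no_of (hq : GC q) (h : PkOk q d) (hz : d.ch q k z ≠ 0) (hk : ¬H867.EP.Inf k) : NO q d z :=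
  sd_near hz hk hq.inf.κ0 hq.inf.κ1 (H404.INF.lvG hq.inf h)

/-- **`NG ≤ 8 G₀` at the passes.** -/
theorem G0_ge (hq : GC q) (h : PkOk q d) (f : Fc q d) (hz : d.ch q k z ≠ 0)
    (hk : k = .P1 ∨ k = .P2) : d.NG q z ≤ 8 * d.G0 q z := by
  have hr := rr_ge hq f hz (by rcases hk with rfl | rfl <;> simp)
  have hr0 : 0 < rr z := by linarith
  have hn := no_of hq h hz (by rcases hk with rfl | rfl <;> simp [H867.EP.Inf])
  have hNG := NG_pos hq h z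
  have hT := hq.rT0
  have hT1 := hq.rT1
  have hL := prL_le hq.rad hr
  have hG := f.lit.G0n z
  have h5 : prL q.e₁ (rr z) * d.G0 q z ≤ 5 * d.G0 q z := mul_le_mul_of_nonneg_right hL hG
  have h6 : 0 < 4 * q.rT * d.NG q z := by positivity
  have h7 : 4 * q.rT * d.NG q z ≤ 1 / 100 * d.NG q z :=
    mul_le_mul_of_nonneg_right (by linarith) hNG.le
  rcases hk with rfl | rfl
  · have h8 := sd_P1 hT hNG hz
    rw [sq_gx] at h8
    have hx : en (gx d q z) ≤ 4 * q.rT * d.NG q z := (lt_of_pow_lt_pow_left₀ 2 h6.le h8).le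
    have hg := (gl_near hq.inf h hn.g1 hn.w1).1
    rw [gx_eq h hq.rad.e0] at hx
    have k1 := (en_lo (gl d.l z.1) (cq d q z • (z.1 - z.2)) hNG.le).trans hx
    rw [en_cq hq.rad hr0] at k1
    have k2 := mul_le_mul_of_nonneg_left hg hNG.le
    linarith
  · have h8 := sd_P2 hT hNG hz
    rw [sq_gy] at h8
    have hx : en (gy d q z) ≤ 4 * q.rT * d.NG q z := (lt_of_pow_lt_pow_left₀ 2 h6.le h8).le
    have hg := (gl_near hq.inf h hn.g2 hn.w2).1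
    have e1 : gy d q z = d.NG q z • gl d.l z.2 + (-(cq d q z)) • (z.1 - z.2) := by
      rw [gy_eq h hq.rad.e0, neg_smul, sub_eq_add_neg]
    have e2 : en ((-(cq d q z)) • (z.1 - z.2)) = prL q.e₁ (rr z) * d.G0 q z := by
      rw [← en_cq hq.rad hr0, en_sm, en_sm, abs_neg]
    rw [e1] at hx
    have k1 := (en_lo (gl d.l z.2) ((-(cq d q z)) • (z.1 - z.2)) hNG.le).trans hx
    rw [e2] at k1
    have k2 := mul_le_mul_of_nonneg_left hg hNG.le
    linarith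

/-- `G₀ ≥ 1 / 8` at the passes. -/
theorem G0_pass (n : ℕ) (hk : k = .P1 ∨ k = .P2) : EvC fun q => ∀ d : Pk n, PkOk q d →
    ∀ z, d.ch q k z ≠ 0 → 1 / 8 ≤ d.G0 q z := by
  refine (evG.and (EvC.fc n)).mono fun q hq d h z hz => ?_
  have f := hq.2 d h
  have h1 := G0_ge hq.1 h f hz hk
  have h2 := f.lit.NGg z
  linarith [f.M]

/-- **Leaf `P1`** with `G = G₀`. -/
theorem nn_P1' {ρ₁ : Cst → ℝ} (hρ : EvC fun q => 0 < ρ₁ q) :
    RowNk .P1 (fun q (d : Pk n) => MP d.sx d.sy (d.W q) (d.G0 q) (ρ₁ q)) (fun _ => 1 / 4)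
      fun q => ρ₁ q * (1 / 8) :=
  nn_P1 (hρ.mono fun _ hq => ⟨hq, by norm_num⟩) (G0_pass n (Or.inl rfl))

/-- **Leaf `P2`** with `G = G₀`. -/
theorem nn_P2' {ρ₁ : Cst → ℝ} (hρ : EvC fun q => 0 < ρ₁ q) :
    RowNk .P2 (fun q (d : Pk n) => MPm d.sx d.sy (d.W q) (d.G0 q) (ρ₁ q)) (fun _ => 1 / 4)
      fun q => ρ₁ q * (1 / 8) :=
  nn_P2 (hρ.mono fun _ hq => ⟨hq, by norm_num⟩) (G0_pass n (Or.inr rfl))

end Vale.Agent.P088.R2.H997.EP
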