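import Vale.Agent.P088.R2.H997.EP.NNp
import Vale.Agent.P088.R2.H997.EP.NNa
import Vale.Agent.P088.R2.H455.E.Lett

/-!
# P088, stage 3, EST': row NN for the letters `Mz L`

`rowNn_of`: the row from the rows of the leaves (the minimum over the 17 leaves). `rowNn_L`: the row
for the literal letters of `H455.E.Mz`, from `k ≥ 1` on `z2a`, `z2b`, `G ≥ a` on `P1`, `P2` and the
rows of the five leaves `RSn`, `RSf`, `iH`, `iF`, `iS`.
-/

open Set Filter
open scoped ContDiff Topology Matrix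

noncomputable section

namespace Vale.Agent.P088.R2.H997.EP

open Vale.Agent.P088.LR Vale.Agent.P088.HY
open Vale.Agent.P088.R2.H31.EP
open Vale.Agent.P088.R2.H551.E
open Vale.Agent.P088.R2.H850.E (Nn)
open Vale.Agent.P088.R2.H867.EP (Zo zos mem_zos)
open Vale.Agent.P088.R2.H455.E
open Vale.Agent.P088.R2.H338.C (TL)
open Vale.Agent.P088.R2.H338.TC (Na rx ry)

variable {n : ℕ}

/-! ## Functions of the constants before `c'` -/

theorem noM_of {f : Cst → ℝ} (h : NB_c' f) : NoM f := fun q kv ε η Ck R => by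
  rw [← h { q with kv := kv, ε := ε, η := η, Ck := Ck, R := R }, ← h q]
  rfl

theorem noM_c₀ {f : Cst → ℝ} (h : NB_c₀ f) : NoM f := fun q kv ε η Ck R => by
  rw [← h { q with kv := kv, ε := ε, η := η, Ck := Ck, R := R }, ← h q]
  rfl

theorem noM_ηc {f : Cst → ℝ} (h : NB_ηc f) : NoM f := fun q kv ε η Ck R => by
  rw [← h { q with kv := kv, ε := ε, η := η, Ck := Ck, R := R }, ← h q]
  rfl

theorem noM_rT {f : Cst → ℝ} (h : NB_rT f) : NoM f := fun q kv ε η Ck R => by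
  rw [← h { q with kv := kv, ε := ε, η := η, Ck := Ck, R := R }, ← h q]
  rfl

theorem noM_const (a : ℝ) : NoM fun _ => a := fun _ _ _ _ _ _ => rfl

theorem noM_σ : NoM fun q => q.σ := fun _ _ _ _ _ _ => rfl

theorem noM_mul {f g : Cst → ℝ} (hf : NoM f) (hg : NoM g) : NoM fun q => f q * g q :=
  fun q a b c d e => congrArg₂ (· * ·) (hf q a b c d e) (hg q a b c d e)

theorem noM_div {f g : Cst → ℝ} (hf : NoM f) (hg : NoM g) : NoM fun q => f q / g q :=
  fun q a b c d e => congrArg₂ (· / ·) (hf q a b c d e) (hg q a b c d e)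

/-! ## The minimum over the leaves -/

theorem zos_ne : zos.Nonempty := ⟨.iH, mem_zos _⟩

/-- The minimum over the leaves. -/
def mn (f : Zo → Cst → ℝ) (q : Cst) : ℝ := zos.inf' zos_ne fun k => f k q

theorem mn_le (f : Zo → Cst → ℝ) (q : Cst) (k : Zo) : mn f q ≤ f k q :=
  Finset.inf'_le (fun k => f k q) (mem_zos k)

theorem mn_pos {f : Zo → Cst → ℝ} {q : Cst} (h : ∀ k, 0 < f k q) : 0 < mn f q := by
  unfold mn
  rw [Finset.lt_inf'_iff]
  exact fun k _ => h k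

theorem noM_mn {f : Zo → Cst → ℝ} (h : ∀ k, NoM (f k)) : NoM (mn f) := fun q a b c d e => by
  unfold mn
  congr 1
  funext k
  exact h k q a b c d e

/-- **Row NN from the leaves.** -/
theorem rowNn_of {M : Fam n} {κ ζ : Zo → Cst → ℝ}
    (h : ∀ k, RowNk k (fun q d => M q d k) (κ k) (ζ k)) :
    RowNn M (fun q => mn κ q / 4) fun q => mn ζ q / 4 := by
  have h1 : EvC fun q => ∀ k, 0 < κ k q ∧ 0 < ζ k q ∧ ∀ d : Pk n, PkOk q d → ∀ z,
      d.ch q k z ≠ 0 → Nk (M q d k) (κ k q) (ζ k q / q.R) z := evZo h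
  refine (h1.and EvC.pos).mono fun q hq => ?_
  have hR : 0 < q.R := by linarith [hq.2.2.2.2.2.2.2.2]
  have p1 := mn_pos fun k => (hq.1 k).1
  have p2 := mn_pos fun k => (hq.1 k).2.1
  refine ⟨by positivity, by positivity, fun d ok k z hz => ?_⟩
  have h2 := (hq.1 k).2.2 d ok z hz
  have h3 : 4 * (mn κ q / 4) ≤ κ k q := by
    have := mn_le κ q k
    linarith
  have h4 : 4 * (mn ζ q / 4 / q.R) ≤ ζ k q / q.R := by
    have h5 : 4 * (mn ζ q / 4 / q.R) = mn ζ q / q.R := by ring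
    rw [h5]
    exact div_le_div_of_nonneg_right (mn_le ζ q k) hR.le
  exact ⟨h2.nn, h3.trans h2.κ, h4.trans h2.ζ₁, h4.trans h2.ζ₂⟩

/-! ## The literal letters -/

/-- The tube letters are nonnegative. -/
theorem nn_TL {cT : ℝ} {N ρx ρy : VV n → ℝ} {z : VV n} (hc : 0 ≤ cT) (hN : 0 ≤ N z) :
    Nn (TL cT N ρx ρy) z := by
  have h1 : 0 ≤ cT * (N z * (ρx z ^ 2 + ρy z ^ 2)) := by positivity
  have h2 : 0 ≤ cT * (N z ^ 2 * ρx z ^ 2 + N z ^ 3 * ρy z ^ 2) := by positivity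
  have h3 : 0 ≤ cT * (N z ^ 3 * ρx z ^ 2 + N z ^ 2 * ρy z ^ 2) := by positivity
  exact ⟨le_rfl, h1, h1, le_rfl, h2, h3, le_rfl, le_rfl⟩

/-- The five leaves whose letters are free in `Lc`. -/
def Fz (k : Zo) : Prop := k = .RSn ∨ k = .RSf ∨ k = .iH ∨ k = .iF ∨ k = .iS

/-- The lower bounds of `κ`. -/
def κL (L : Lc n) (κF : Zo → Cst → ℝ) (k : Zo) : Cst → ℝ := match k with
  | .z0 => L.c0
  | .zI => L.cI
  | .z2a => fun _ => 1 / 2
  | .z2b => fun _ => 1 / 2
  | .zB => L.cB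
  | .T1 => fun _ => 1
  | .T2 => fun _ => 1
  | .A1 => fun _ => 1 / 2
  | .A2 => fun _ => 1 / 2
  | .Af => fun _ => 1 / 2
  | .P1 => fun _ => 1 / 4
  | .P2 => fun _ => 1 / 4
  | k => κF k

/-- The lower bounds of `R ζ_i`. -/
def ζL (L : Lc n) (a : Cst → ℝ) (ζF : Zo → Cst → ℝ) (k : Zo) : Cst → ℝ := match k with
  | .z0 => fun q => L.c0 q * (L.cs q * q.σ)
  | .zI => L.cI
  | .z2a => fun _ => 1 / 2
  | .z2b => fun _ => 1 / 2
  | .zB => L.cB
  | .T1 => L.cT
  | .T2 => L.cT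
  | .A1 => fun q => q.σ / 400
  | .A2 => fun q => q.σ / 400
  | .Af => fun q => q.σ / 400
  | .P1 => fun q => L.cP q * a q
  | .P2 => fun q => L.cP q * a q
  | k => ζF k

/-- **Row NN for the letters `Mz L`.** -/
theorem rowNn_L {L : Lc n} (ok : L.Ok) {a : Cst → ℝ} (ha : EvC fun q => 0 < a q)
    (hk : ∀ k : Zo, k = .z2a ∨ k = .z2b → EvC fun q => ∀ d : Pk n, PkOk q d → ∀ z,
      d.ch q k z ≠ 0 → 1 ≤ L.kz q d z)
    (hG : ∀ k : Zo, k = .P1 ∨ k = .P2 → EvC fun q => ∀ d : Pk n, PkOk q d → ∀ z,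
      d.ch q k z ≠ 0 → a q ≤ L.GP q d z)
    {κF ζF : Zo → Cst → ℝ} (hF : ∀ k, Fz k → RowNk k (L.FM k) (κF k) (ζF k)) :
    RowNn (Mz L) (fun q => mn (κL L κF) q / 4) fun q => mn (ζL L a ζF) q / 4 := by
  refine rowNn_of fun k => ?_
  have hA : ∀ k : Zo, k = .A1 ∨ k = .A2 ∨ k = .Af → RowNk k (fun q (d : Pk n) =>
      H747.SW.MA d.sx d.sy (d.W q) (H747.A.mA L.μA q d) (L.kA q)) (fun _ => 1 / 2)
      fun q => q.σ / 400 := fun k hk =>
    nn_A (EvC.of fun q => (ok.μA.1 q).le) (EvC.of fun q => (ok.kA.1 q).2) hk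
  cases k
  case z0 => exact nn_z0 (kz := L.kz) (EvC.of ok.c0.1) (EvC.of fun q => (ok.cs.1 q).1)
  case zI =>
    refine RowNk.add (nn_zI (kz := L.kz) (EvC.of ok.cI.1)) ((EvC.fc n).mono fun q f d h z _ => ?_)
    exact nn_TL (ok.cN.1 q).le (zero_le_one.trans ((f d h).N _))
  case z2a => exact nn_z2 (kz := L.kz) (hk _ (Or.inl rfl))
  case z2b => exact nn_z2 (kz := L.kz) (hk _ (Or.inr rfl))
  case zB => exact nn_zB (kz := L.kz) (EvC.of ok.cB.1)
  case T1 => exact nn_T1 (EvC.of ok.cT.1)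
  case T2 => exact nn_T2 (EvC.of ok.cT.1)
  case A1 => exact hA _ (Or.inl rfl)
  case A2 => exact hA _ (Or.inr (Or.inl rfl))
  case Af => exact hA _ (Or.inr (Or.inr rfl))
  case P1 => exact nn_P1 ((EvC.of ok.cP.1).and ha) (hG _ (Or.inl rfl))
  case P2 => exact nn_P2 ((EvC.of ok.cP.1).and ha) (hG _ (Or.inr rfl))
  case RSn => exact hF _ (Or.inl rfl)
  case RSf => exact hF _ (Or.inr (Or.inl rfl))
  case iH => exact hF _ (Or.inr (Or.inr (Or.inl rfl)))
  case iF => exact hF _ (Or.inr (Or.inr (Or.inr (Or.inl rfl))))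
  case iS => exact hF _ (Or.inr (Or.inr (Or.inr (Or.inr rfl))))

/-- The constants of row NN depend only on the constants up to `M₀`. -/
theorem noM_κL {L : Lc n} (ok : L.Ok) {κF : Zo → Cst → ℝ} (h : ∀ k, Fz k → NoM (κF k)) :
    NoM fun q => mn (κL L κF) q / 4 := by
  refine noM_div (noM_mn fun k => ?_) (noM_const 4)
  cases k
  case z0 => exact noM_of ok.c0.2
  case zI => exact noM_c₀ ok.cI.2
  case zB => exact noM_ηc ok.cB.2
  case RSn => exact h _ (Or.inl rfl)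
  case RSf => exact h _ (Or.inr (Or.inl rfl))
  case iH => exact h _ (Or.inr (Or.inr (Or.inl rfl)))
  case iF => exact h _ (Or.inr (Or.inr (Or.inr (Or.inl rfl))))
  case iS => exact h _ (Or.inr (Or.inr (Or.inr (Or.inr rfl))))
  all_goals exact noM_const _

theorem noM_ζL {L : Lc n} (ok : L.Ok) {a : Cst → ℝ} (ha : NoM a) {ζF : Zo → Cst → ℝ}
    (h : ∀ k, Fz k → NoM (ζF k)) : NoM fun q => mn (ζL L a ζF) q / 4 := by
  refine noM_div (noM_mn fun k => ?_) (noM_const 4)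
  cases k
  case z0 => exact noM_mul (noM_of ok.c0.2) (noM_mul (noM_of ok.cs.2) noM_σ)
  case zI => exact noM_c₀ ok.cI.2
  case zB => exact noM_ηc ok.cB.2
  case z2a => exact noM_const _
  case z2b => exact noM_const _
  case T1 => exact noM_rT ok.cT.2
  case T2 => exact noM_rT ok.cT.2
  case A1 => exact noM_div noM_σ (noM_const 400)
  case A2 => exact noM_div noM_σ (noM_const 400)
  case Af => exact noM_div noM_σ (noM_const 400)
  case P1 => exact noM_mul (noM_rT ok.cP.2) ha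
  case P2 => exact noM_mul (noM_rT ok.cP.2) ha
  case RSn => exact h _ (Or.inl rfl)
  case RSf => exact h _ (Or.inr (Or.inl rfl))
  case iH => exact h _ (Or.inr (Or.inr (Or.inl rfl)))
  case iF => exact h _ (Or.inr (Or.inr (Or.inr (Or.inl rfl))))
  case iS => exact h _ (Or.inr (Or.inr (Or.inr (Or.inr rfl))))

end Vale.Agent.P088.R2.H997.EP
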